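import Vale.Agent.P011.D4Y.H370.TripConjI
import Vale.Agent.P011N.D1.D4Y.Defs
import Vale.Agent.P011N.D1.D4Y.H68.AutI

/-!
Version for big subgroups of `P011.D4Y.H370.TripConjI`.
-/

open NumberField Topology

namespace Vale.Agent.P011.D4Y.H370

open Vale.Agent.P011.MPQ Vale.Agent.P011.D4 Vale.Agent.P011.D4.Oct Vale.Agent.P011.D4.Em

open Vale.Agent.P011.D4.B.FI (fixI mem_fixI)

open Vale.Agent.P011.D4X

/-- The automorphisms of the octonion algebra over the ground field which fix `i` lie in the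
finite residual. -/
theorem extE_mem_RsIB {k L E : Type} [Field k] [NumberField k] [Field L] [Field E] [Algebra k L]
    [Algebra k E] [Algebra L E] [IsScalarTower k L E] [NeZero (2 : E)] {ρ σ ι : E ≃ₐ[k] E}
    {α : E} {a b c : kˣ} {q : Lˣ} (H : HyI ρ σ ι α a b c q)
    {f : AutC a b c} (hf : f.1 gi = gi) : extE E f.1 ∈ RsIB ρ σ ι α a b c q :=
  autI_memB H (extE_mem_GTI hf) (D4X.H369.extE_ep (⟨f, mem_fixI.2 hf⟩ : fixI a b c))

end Vale.Agent.P011.D4Y.H370
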